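import Vale.Agent.Lib.P310T.Defs
import Vale.Agent.Lib.P310.Defs

/-!
# P310T: comparison of the two encodings of the Weisfeiler-Leman colours and of the input
-/

namespace Vale.Agent.P310T

open Vale.Agent.P310

theorem count_univ_map {α β : Type} [Fintype α] [DecidableEq β] (f : α → β) (b : β) :
    ((Finset.univ : Finset α).val.map f).count b = Nat.card {a : α // f a = b} := by
  classical
  rw [Multiset.count_map, Nat.card_eq_fintype_card, Fintype.card_subtype]
  rw [← Finset.filter_val, Finset.card_val]
  congr 1
  ext a
  simp only [Finset.mem_filter, Finset.mem_univ, true_and]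
  exact eq_comm

open Classical in
/-- translation of colours -/
noncomputable def tr (k : ℕ) : (r : ℕ) → Color k r → Colour k r
  | 0, c => ({p | (c p.1 p.2).1}, {p | (c p.1 p.2).2})
  | r + 1, c => (tr k r c.1, fun f => (c.2.map fun g => fun i => tr k r (g i)).count f)

open Classical in
theorem tr_injective (k r : ℕ) : Function.Injective (tr k r) := by
  induction r with
  | zero =>
    intro c c' h
    funext i j
    have h1 := congrArg (fun s => (i, j) ∈ s.1) h
    have h2 := congrArg (fun s => (i, j) ∈ s.2) h
    exact Prod.ext h1 h2
  | succ r ih =>
    rintro ⟨a, s⟩ ⟨a', s'⟩ h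
    have h1 : tr k r a = tr k r a' := congrArg Prod.fst h
    have h2 : ∀ f, ((s.map fun g => fun i => tr k r (g i)).count f) =
        ((s'.map fun g => fun i => tr k r (g i)).count f) :=
      fun f => congrFun (congrArg Prod.snd h) f
    have h3 : (s.map fun g => fun i => tr k r (g i)) = (s'.map fun g => fun i => tr k r (g i)) :=
      Multiset.ext.2 h2
    have h4 : Function.Injective fun g : Fin k → Color k r => fun i => tr k r (g i) := by
      intro g g' hg
      funext i
      exact ih (congrFun hg i)
    exact Prod.ext (ih h1) (Multiset.map_injective h4 h3)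

open Classical in
theorem tr_color {k : ℕ} {V : Type} [Fintype V] (G : SimpleGraph V) (r : ℕ) (x : Fin k → V) :
    tr k r (color G r x) = colour G r x := by
  induction r generalizing x with
  | zero => rfl
  | succ r ih =>
    refine Prod.ext (ih x) ?_
    funext f
    change (((Finset.univ : Finset V).val.map fun y => fun i =>
      color G r (Function.update x i y)).map fun g => fun i => tr k r (g i)).count f = _
    rw [Multiset.map_map]
    have h1 : ((fun g : Fin k → Color k r => fun i => tr k r (g i)) ∘ fun y => fun i =>
        color G r (Function.update x i y)) = fun y => fun i =>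
          colour G r (Function.update x i y) := by
      funext y i
      exact ih _
    rw [h1]
    refine (count_univ_map (fun y => fun i => colour G r (Function.update x i y)) f).trans ?_
    exact Nat.card_congr (Equiv.subtypeEquivRight fun y => funext_iff)

theorem equivalent_iff {k : ℕ} {V W : Type} [Fintype V] [Fintype W] (G : SimpleGraph V)
    (H : SimpleGraph W) : Equivalent k G H ↔ WLEquiv k G H := by
  classical
  have key : ∀ r : ℕ, (∀ c : Colour k r, Nat.card {x : Fin k → V // colour G r x = c} =
      Nat.card {x : Fin k → W // colour H r x = c}) ↔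
      (Finset.univ : Finset (Fin k → V)).val.map (color G r) =
      (Finset.univ : Finset (Fin k → W)).val.map (color H r) := by
    intro r
    have e1 : ((Finset.univ : Finset (Fin k → V)).val.map (color G r)).map (tr k r) =
        (Finset.univ : Finset (Fin k → V)).val.map (colour G r) := by
      rw [Multiset.map_map]
      exact Multiset.map_congr rfl fun x _ => tr_color G r x
    have e2 : ((Finset.univ : Finset (Fin k → W)).val.map (color H r)).map (tr k r) =
        (Finset.univ : Finset (Fin k → W)).val.map (colour H r) := by
      rw [Multiset.map_map]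
      exact Multiset.map_congr rfl fun x _ => tr_color H r x
    constructor
    · intro h
      refine Multiset.map_injective (tr_injective k r) ?_
      rw [e1, e2]
      refine Multiset.ext.2 fun c => ?_
      rw [count_univ_map, count_univ_map]
      exact h c
    · intro h c
      rw [← count_univ_map, ← count_univ_map, ← e1, ← e2, h]
  exact forall_congr' key

theorem matrixWord_eq {n : ℕ} (G : SimpleGraph (Fin n)) : matrixWord G = adjBits G := by
  classical
  unfold matrixWord adjBits
  rw [List.ofFn_mul, List.flatMap_def, ← List.ofFn_eq_map]
  have h : ∀ i j : Fin n, (⟨(i : ℕ) * n + j, by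
      calc (i : ℕ) * n + j < i * n + n := by omega
        _ = (i + 1) * n := by ring
        _ ≤ n * n := Nat.mul_le_mul_right _ i.2⟩ : Fin (n * n)).divNat = i ∧
      (⟨(i : ℕ) * n + j, by
      calc (i : ℕ) * n + j < i * n + n := by omega
        _ = (i + 1) * n := by ring
        _ ≤ n * n := Nat.mul_le_mul_right _ i.2⟩ : Fin (n * n)).modNat = j := by
    intro i j
    have hn : 0 < n := lt_of_le_of_lt (Nat.zero_le _) i.2
    constructor
    · ext
      simp only [Fin.coe_divNat]
      rw [Nat.mul_comm, Nat.mul_add_div hn, Nat.div_eq_of_lt j.2, Nat.add_zero]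
    · ext
      simp only [Fin.coe_modNat]
      rw [Nat.mul_comm, Nat.mul_add_mod, Nat.mod_eq_of_lt j.2]
  congr 1
  refine congrArg List.ofFn (funext fun i => ?_)
  rw [← List.ofFn_eq_map]
  refine congrArg List.ofFn (funext fun j => ?_)
  rw [(h i j).1, (h i j).2]

end Vale.Agent.P310T
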