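import Mathlib

/-!
# P310, second formulation: Weisfeiler-Leman colours by multiplicities, multitape Turing machines
-/

namespace Vale.Agent.P310T

/-- Colours of `k`-tuples after `r` rounds.  A multiset of `k`-tuples of colours is given by its
multiplicity function. -/
def Colour (k : ℕ) : ℕ → Type
  | 0 => Set (Fin k × Fin k) × Set (Fin k × Fin k)
  | r + 1 => Colour k r × ((Fin k → Colour k r) → ℕ)

/-- The colour `C_r(x)`.  `C_0(x)` records which entries are equal and which are adjacent;
`C_{r+1}(x)` records `C_r(x)` and, for every `k`-tuple `c` of colours, the number of vertices `y`
such that `C_r(x[i ← y]) = c_i` for all `i`. -/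
noncomputable def colour {k : ℕ} {V : Type} (G : SimpleGraph V) :
    (r : ℕ) → (Fin k → V) → Colour k r
  | 0, x => ({p | x p.1 = x p.2}, {p | G.Adj (x p.1) (x p.2)})
  | r + 1, x =>
    (colour G r x, fun c => Nat.card {y : V // ∀ i, colour G r (Function.update x i y) = c i})

/-- `G ≡_k H`: after every number of rounds every colour occurs equally often among the `k`-tuples
of vertices of `G` and of `H`. -/
def Equivalent (k : ℕ) {V W : Type} (G : SimpleGraph V) (H : SimpleGraph W) : Prop :=
  ∀ (r : ℕ) (c : Colour k r),
    Nat.card {x : Fin k → V // colour G r x = c} = Nat.card {x : Fin k → W // colour H r x = c}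

open Classical in
/-- the adjacency matrix of a graph on `{0, …, n-1}`, written row by row: the bit number
`n i + j` tells whether `i` and `j` are adjacent -/
noncomputable def matrixWord {n : ℕ} (G : SimpleGraph (Fin n)) : List Bool :=
  List.ofFn fun p : Fin (n * n) => decide (G.Adj p.divNat p.modNat)

/-- A deterministic Turing machine with `extra + 1` two-way infinite tapes, one head on each tape
(tape `0` is the input tape, it may be overwritten).  `verdict q = some b` means that `q` is a
halting state with answer `b`. -/
structure Machine where
  extra : ℕ
  Q : Type
  Γ : Type
  finQ : Finite Q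
  finΓ : Finite Γ
  blank : Inhabited Γ
  start : Q
  /-- the tape symbols for the input bits -/
  bit : Bool → Γ
  verdict : Q → Option Bool
  /-- new state; for each tape the symbol to be written and the direction of the move of the head
  (`none`: the head stays) -/
  δ : Q → (Fin (extra + 1) → Γ) → Q × (Fin (extra + 1) → Γ × Option Turing.Dir)

attribute [instance] Machine.finQ Machine.finΓ Machine.blank

/-- configurations; `Turing.Tape` is Mathlib's two-way infinite tape with a head -/
structure Config (M : Machine) where
  q : M.Q
  tape : Fin (M.extra + 1) → Turing.Tape M.Γ

/-- write a symbol and move the head -/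
def act {Γ : Type} [Inhabited Γ] (a : Γ × Option Turing.Dir) (T : Turing.Tape Γ) :
    Turing.Tape Γ :=
  match a.2 with
  | none => T.write a.1
  | some d => (T.write a.1).move d

/-- one step; in a halting state nothing changes any more -/
def Machine.step (M : Machine) (c : Config M) : Config M :=
  if (M.verdict c.q).isSome then c else
    { q := (M.δ c.q fun i => (c.tape i).head).1
      tape := fun i => act ((M.δ c.q fun i => (c.tape i).head).2 i) (c.tape i) }

/-- the initial configuration: the input word on tape `0`, starting under the head; all other cells
blank -/
def Machine.init (M : Machine) (w : List Bool) : Config M where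
  q := M.start
  tape := fun i => Turing.Tape.mk₁ (if i = 0 then w.map M.bit else [])

/-- the configuration after `s` steps on a pair of graphs given by their adjacency matrices -/
noncomputable def Machine.run (M : Machine) {n : ℕ} (G H : SimpleGraph (Fin n)) (s : ℕ) :
    Config M := M.step^[s] (M.init (matrixWord G ++ matrixWord H))

open Classical in
/-- `M` decides `≡_k` (for pairs of graphs with the same number of vertices) -/
def Decides (M : Machine) (k : ℕ) : Prop :=
  ∀ (n : ℕ) (G H : SimpleGraph (Fin n)), ∃ s : ℕ,
    M.verdict (M.run G H s).q = some (decide (Equivalent k G H))

/-- the worst-case running time over pairs of graphs with `n` vertices each: the least number `s` such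
that after `s` steps `M` has halted on all these pairs -/
noncomputable def runningTime (M : Machine) (n : ℕ) : ℕ :=
  sInf {s : ℕ | ∀ G H : SimpleGraph (Fin n), (M.verdict (M.run G H s).q).isSome}

end Vale.Agent.P310T
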