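import Vale.Agent.Lib.P310.SM
import Vale.Agent.Lib.P310.Defs

/-!
# P310T: the trivial lower bound, for stack machines (the machine has to read the second graph)
-/

namespace Vale.Agent.P310T

open Filter Vale.Agent.P310

/-- The machine does not see the part `v` of the input before `|u|` steps. -/
private theorem local_run (N : SM) (kin : N.K) {I : Type} (sym : I → N.G) (u v v' : List I) :
    ∀ t : ℕ, t ≤ u.length → ∃ x : List N.G, u.length - t ≤ x.length ∧
      (N.step^[t] (N.init kin sym (u ++ v))).q = (N.step^[t] (N.init kin sym (u ++ v'))).q ∧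
      (∀ k, k ≠ kin → (N.step^[t] (N.init kin sym (u ++ v))).stk k =
        (N.step^[t] (N.init kin sym (u ++ v'))).stk k) ∧
      (N.step^[t] (N.init kin sym (u ++ v))).stk kin = x ++ v.map sym ∧
      (N.step^[t] (N.init kin sym (u ++ v'))).stk kin = x ++ v'.map sym := by
  classical
  intro t
  induction t with
  | zero =>
    intro _
    refine ⟨u.map sym, by simp, rfl, ?_, ?_, ?_⟩
    · intro k hk
      simp [SM.init, Function.update_of_ne hk]
    · simp [SM.init]
    · simp [SM.init]
  | succ t ih =>
    intro ht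
    obtain ⟨x, hx, hq, hk, h1, h2⟩ := ih (by omega)
    rw [Function.iterate_succ_apply', Function.iterate_succ_apply']
    generalize N.step^[t] (N.init kin sym (u ++ v)) = c at hq hk h1
    generalize N.step^[t] (N.init kin sym (u ++ v')) = c' at hq hk h2
    obtain ⟨a, x', rfl⟩ : ∃ a x', x = a :: x' := by
      cases x with
      | nil => simp at hx; omega
      | cons a x' => exact ⟨a, x', rfl⟩
    have hhead : (c.stk (N.sel c.q)).head? = (c'.stk (N.sel c'.q)).head? := by
      rw [← hq]
      by_cases hs : N.sel c.q = kin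
      · rw [hs, h1, h2]
        simp
      · rw [hk _ hs]
    by_cases hhalt : N.halt c.q
    · have hhalt' : N.halt c'.q := hq ▸ hhalt
      unfold SM.step
      rw [if_pos hhalt, if_pos hhalt']
      exact ⟨a :: x', by simp at hx ⊢; omega, hq, hk, h1, h2⟩
    · have hhalt' : ¬ N.halt c'.q := hq ▸ hhalt
      unfold SM.step
      rw [if_neg hhalt, if_neg hhalt', ← hhead, ← hq]
      simp only
      have hlen : u.length - (t + 1) ≤ x'.length := by simp at hx; omega
      rcases hop : N.op c.q (c.stk (N.sel c.q)).head? with _ | _ | g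
      · exact ⟨a :: x', by simp; omega, trivial, hk, h1, h2⟩
      · by_cases hs : N.sel c.q = kin
        · refine ⟨x', hlen, trivial, ?_, ?_, ?_⟩
          · intro k hk'
            simp only [hs, Function.update_of_ne hk']
            exact hk k hk'
          · simp only [hs, Function.update_self, h1]
            rfl
          · simp only [hs, Function.update_self, h2]
            rfl
        · refine ⟨a :: x', by simp; omega, trivial, ?_, ?_, ?_⟩
          · intro k hk'
            by_cases hks : k = N.sel c.q
            · subst hks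
              simp only [Function.update_self, hk _ hk']
            · simp only [Function.update_of_ne hks]
              exact hk k hk'
          · simp only [Function.update_of_ne (Ne.symm hs)]
            exact h1
          · simp only [Function.update_of_ne (Ne.symm hs)]
            exact h2
      · by_cases hs : N.sel c.q = kin
        · refine ⟨g :: a :: x', by simp; omega, trivial, ?_, ?_, ?_⟩
          · intro k hk'
            simp only [hs, Function.update_of_ne hk']
            exact hk k hk'
          · simp only [hs, Function.update_self, h1]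
            rfl
          · simp only [hs, Function.update_self, h2]
            rfl
        · refine ⟨a :: x', by simp; omega, trivial, ?_, ?_, ?_⟩
          · intro k hk'
            by_cases hks : k = N.sel c.q
            · subst hks
              simp only [Function.update_self, hk _ hk']
            · simp only [Function.update_of_ne hks]
              exact hk k hk'
          · simp only [Function.update_of_ne (Ne.symm hs)]
            exact h1
          · simp only [Function.update_of_ne (Ne.symm hs)]
            exact h2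

private theorem halted (N : SM) (c : N.Cfg) (hc : N.halt c.q) (n : ℕ) : N.step^[n] c = c := by
  induction n with
  | zero => rfl
  | succ n ih =>
    rw [Function.iterate_succ_apply', ih]
    unfold SM.step
    rw [if_pos hc]

/-- the empty and the complete graph are not equivalent -/
private theorem not_wl {k n : ℕ} (hk : 2 ≤ k) (hn : 2 ≤ n) :
    ¬ WLEquiv k (⊥ : SimpleGraph (Fin n)) (⊤ : SimpleGraph (Fin n)) := by
  classical
  intro h
  have h0 := h 0
  let x : Fin k → Fin n := fun i => if i = ⟨0, by omega⟩ then ⟨0, by omega⟩ else ⟨1, by omega⟩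
  have hmem : color (⊤ : SimpleGraph (Fin n)) 0 x ∈
      (Finset.univ : Finset (Fin k → Fin n)).val.map (color (⊤ : SimpleGraph (Fin n)) 0) :=
    Multiset.mem_map_of_mem _ (Finset.mem_univ_val x)
  rw [← h0] at hmem
  obtain ⟨y, -, hy⟩ := Multiset.mem_map.1 hmem
  have h1 := congrFun (congrFun hy ⟨0, by omega⟩) ⟨1, by omega⟩
  simp only [color, Prod.mk.injEq, SimpleGraph.bot_adj, SimpleGraph.top_adj, ne_eq] at h1
  have h2 := h1.2
  simp [x] at h2

private theorem length_adjBits' {n : ℕ} (G : SimpleGraph (Fin n)) :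
    (adjBits G).length = n ^ 2 := by
  simp [adjBits, List.length_flatMap, sq]

/-- the stack machine `N` decides `≡_k` in time `C (T n + 1)` -/
def SMDec (k : ℕ) (T : ℕ → ℕ) (N : SM) (kin kout : N.K) (sym : Bool → N.G) (gacc : N.G)
    (C : ℕ) : Prop :=
  ∀ (n : ℕ) (G H : SimpleGraph (Fin n)), ∃ n₁ ≤ C * (T n + 1),
    N.halt (N.step^[n₁] (N.init kin sym (encPair ⟨n, G, H⟩))).q ∧
      (((N.step^[n₁] (N.init kin sym (encPair ⟨n, G, H⟩))).stk kout).head? = some gacc ↔
        wlDecision k ⟨n, G, H⟩ = true)

/-- deciders need at least about `n ^ 2` steps -/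
theorem triv_lower {k : ℕ} (hk : 2 ≤ k) {T : ℕ → ℕ} {N : SM} {kin kout : N.K} {sym : Bool → N.G}
    {gacc : N.G} {C : ℕ} (hN : SMDec k T N kin kout sym gacc C) (n : ℕ) (hn : 2 ≤ n) :
    n ^ 2 ≤ C * (T n + 1) := by
  classical
  by_contra hlt
  rw [not_le] at hlt
  obtain ⟨n₁, hn₁, hh₁, ha₁⟩ := hN n ⊥ ⊥
  obtain ⟨n₂, hn₂, hh₂, ha₂⟩ := hN n ⊥ ⊤
  have hw₁ : wlDecision k ⟨n, ⊥, ⊥⟩ = true := by
    simp only [wlDecision, decide_eq_true_iff]
    intro r
    rfl
  have hw₂ : ¬ wlDecision k ⟨n, ⊥, ⊤⟩ = true := by
    simp only [wlDecision, decide_eq_true_iff]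
    exact not_wl hk hn
  have hlen : (adjBits (⊥ : SimpleGraph (Fin n))).length = n ^ 2 := length_adjBits' _
  obtain ⟨x, hx, hq, hks, h1, h2⟩ := local_run N kin sym (adjBits (⊥ : SimpleGraph (Fin n)))
    (adjBits (⊥ : SimpleGraph (Fin n))) (adjBits (⊤ : SimpleGraph (Fin n))) (C * (T n + 1))
    (by rw [hlen]; exact hlt.le)
  have e₁ : N.step^[C * (T n + 1)] (N.init kin sym (encPair ⟨n, ⊥, ⊥⟩)) =
      N.step^[n₁] (N.init kin sym (encPair ⟨n, ⊥, ⊥⟩)) := by
    obtain ⟨d, hd⟩ := Nat.exists_eq_add_of_le hn₁
    rw [hd, Nat.add_comm, Function.iterate_add_apply, halted N _ hh₁]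
  have e₂ : N.step^[C * (T n + 1)] (N.init kin sym (encPair ⟨n, ⊥, ⊤⟩)) =
      N.step^[n₂] (N.init kin sym (encPair ⟨n, ⊥, ⊤⟩)) := by
    obtain ⟨d, hd⟩ := Nat.exists_eq_add_of_le hn₂
    rw [hd, Nat.add_comm, Function.iterate_add_apply, halted N _ hh₂]
  rw [← e₁] at ha₁
  rw [← e₂] at ha₂
  have hhead : ((N.step^[C * (T n + 1)] (N.init kin sym (encPair ⟨n, ⊥, ⊥⟩))).stk kout).head? =
      ((N.step^[C * (T n + 1)] (N.init kin sym (encPair ⟨n, ⊥, ⊤⟩))).stk kout).head? := by
    by_cases hko : kout = kin
    · rw [hko]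
      have h1' : (N.step^[C * (T n + 1)] (N.init kin sym (encPair ⟨n, ⊥, ⊥⟩))).stk kin =
        x ++ (adjBits (⊥ : SimpleGraph (Fin n))).map sym := h1
      have h2' : (N.step^[C * (T n + 1)] (N.init kin sym (encPair ⟨n, ⊥, ⊤⟩))).stk kin =
        x ++ (adjBits (⊤ : SimpleGraph (Fin n))).map sym := h2
      rw [h1', h2']
      cases x with
      | nil =>
        rw [hlen] at hx
        simp at hx
        omega
      | cons a x' => rfl
    · rw [show (N.step^[C * (T n + 1)] (N.init kin sym (encPair ⟨n, ⊥, ⊥⟩))).stk kout =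
        (N.step^[C * (T n + 1)] (N.init kin sym (encPair ⟨n, ⊥, ⊤⟩))).stk kout from hks kout hko]
  rw [hhead] at ha₁
  exact hw₂ (ha₂.1 (ha₁.2 hw₁))

end Vale.Agent.P310T
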