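import Vale.Agent.Lib.P310.Encode
import Vale.Agent.Lib.P310.Vertex
import Vale.Agent.Lib.P310.DegBound
import Vale.Agent.Lib.P310.Dup
import Vale.Agent.Lib.P310.Spo
import Vale.Agent.Lib.P310.Compile
import Vale.Agent.Lib.P310.SMHorn
import Vale.Agent.Lib.P310.Prep
import Vale.Agent.Lib.P310.Numerics
import Vale.Agent.Lib.P310.FinLab
import Vale.Agent.Lib.P310T.Triv

/-!
# P310T: lower bounds for stack machines
-/

namespace Vale.Agent.P310T

open Filter Asymptotics Topology Vale.Agent.P310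

/-- The fixed point: for `p` large and `p ^ 6 ≤ n < p ^ 7` the time is at least about
`p ^ m`. -/
theorem fixed_point {m : ℕ} (hm : 15 ≤ m) {time : ℕ → ℕ} {N₀ : SM} {kin₀ kout₀ : N₀.K}
    {sym₀ : Bool → N₀.G} {gacc₀ : N₀.G} {C : ℕ} (hN₀ : SMDec (m + 1) time N₀ kin₀ kout₀ sym₀ gacc₀ C) :
    ∃ p₀ : ℕ, ∀ p : ℕ, p₀ ≤ p → ∀ n : ℕ, p ^ 6 ≤ n → n < p ^ 7 →
      p ^ m ≤ C * (time n + 1) + 8 * p ^ 14 + 4 := by
  obtain ⟨N, kin, kout, sym, gacc, hN⟩ := prep N₀ kin₀ kout₀ sym₀ gacc₀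
  obtain ⟨CS, hCS⟩ := sm_horn N kin kout sym gacc Sy.zero Sy.max (inF hm) (blankF hm)
  have := finite_sy m
  obtain ⟨S, hS⟩ := compile CS syNum (by omega : 1 ≤ m)
  obtain ⟨D, hD⟩ := deg_bound S (m + 1)
  have hfR := S.finRule
  have hfC : Finite (Cls (m + 1) S.Rule (m + 1)) := finite_cls _ _ _
  have hfL : Finite (Lab (m + 1) S.Rule (m + 1) D) := finite_lab _ _ _ _
  obtain ⟨cidx, hcidx⟩ : ∃ f : Cls (m + 1) S.Rule (m + 1) → ℕ, Function.Injective f :=
    ⟨fun c => (Finite.equivFin _ c : ℕ), fun a b hab =>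
      (Finite.equivFin (Cls (m + 1) S.Rule (m + 1))).injective (Fin.ext hab)⟩
  refine ⟨Nat.card (Sy m) + Nat.card (Lab (m + 1) S.Rule (m + 1) D) + 2, ?_⟩
  intro p hp n h6 h7
  have hp0 : NeZero p := ⟨by omega⟩
  have hp2 : 2 ≤ p := by omega
  have hpS : Nat.card (Sy m) < p := by omega
  -- the codes of the labels
  obtain ⟨code, hcode⟩ : ∃ code : Lab (m + 1) S.Rule (m + 1) D → ZMod p,
      Function.Injective code := by
    refine ⟨fun l => ((Finite.equivFin (Lab (m + 1) S.Rule (m + 1) D) l : ℕ) : ZMod p), ?_⟩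
    intro l l' h
    have h1 : (Finite.equivFin (Lab (m + 1) S.Rule (m + 1) D) l : ℕ) < p :=
      lt_of_lt_of_le (Finite.equivFin (Lab (m + 1) S.Rule (m + 1) D) l).2 (by omega)
    have h2 : (Finite.equivFin (Lab (m + 1) S.Rule (m + 1) D) l' : ℕ) < p :=
      lt_of_lt_of_le (Finite.equivFin (Lab (m + 1) S.Rule (m + 1) D) l').2 (by omega)
    simp only [ZMod.natCast_eq_natCast_iff', Nat.mod_eq_of_lt h1, Nat.mod_eq_of_lt h2] at h
    exact (Finite.equivFin (Lab (m + 1) S.Rule (m + 1) D)).injective (Fin.ext h)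
  obtain ⟨J, hJ, e, he⟩ := exists_vertexEquiv code hcode h6 h7.le
  set T := table S cidx code n with hT
  set G := finalGraph S cidx T e with hG
  by_contra hlt
  rw [not_le] at hlt
  -- the machine on this input
  obtain ⟨n₁, hn₁, hhalt₁, hacc₁⟩ := hN₀ n (G false) (G true)
  rw [← reduceOption_padWord h7.le] at hhalt₁ hacc₁
  obtain ⟨n₀, hn₀, hhalt, hacc⟩ := hN (padWord p (G false) (G true)) n₁ hhalt₁
  rw [length_padWord] at hn₀
  have hn₀' : n₀ < p ^ m := by omega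
  -- derivability of the goal = acceptance
  have hzero : ∀ a b : ZMod p, (((syNum (Sy.zero : Sy m) : ℕ) : ZMod p), a, b) ∈ T ↔ a = 0 := by
    intro a b
    constructor
    · rintro ⟨y, hy, h⟩
      rw [← syNum_inj hpS hy] at h
      exact h
    · intro h
      exact ⟨Sy.zero, rfl, h⟩
  have hmax : ∀ a b : ZMod p, (((syNum (Sy.max : Sy m) : ℕ) : ZMod p), a, b) ∈ T ↔ a = -1 := by
    intro a b
    constructor
    · rintro ⟨y, hy, h⟩
      rw [← syNum_inj hpS hy] at h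
      exact h
    · intro h
      exact ⟨Sy.max, rfl, h⟩
  obtain ⟨hgood, h2⟩ := hS p T
  have hP : S.P0 ≠ S.Pg := hgood.P0_ne
  have h1 := hCS syNum p hp2 T (padWord p (G false) (G true)) hzero hmax
    (fun x r hr => inF_correct hm S cidx hpS hp2 code hcode h7 T hT e he hP x r hr)
    (fun r hr => blankF_correct hm S cidx hpS hp2 code T hT e r hr) n₀ hhalt hn₀'
  have hdec : wlDecision (m + 1) ⟨n, G false, G true⟩ = true ↔
      WLEquiv (m + 1) (G false) (G true) := by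
    simp only [wlDecision, decide_eq_true_iff]
  have h3 : (S.toHorn p T).Known (S.toHorn p T).Pg 0 ↔ WLEquiv (m + 1) (G false) (G true) := by
    rw [h2, h1, hacc, hacc₁, hdec]
  -- the pair of graphs
  let hfin : Fintype ((Lab (m + 1) (S.toHorn p T).Rule (m + 1) D × (Fin 5 → ZMod p)) ⊕ J) :=
    @Fintype.ofFinite _ (@Finite.instSum _ _ (@Finite.instProd _ _ hfL inferInstance) hJ)
  let hfin' : Fintype ((Lab (m + 1) S.Rule (m + 1) D × (Fin 5 → ZMod p)) ⊕ J) := hfin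
  have hpair : PairOk (S.toHorn p T) (m + 1) D cidx viewRank :=
    { good := hgood
      hM := by omega
      hB := le_rfl
      finRule := hfR
      finX := inferInstance
      cidx_inj := hcidx
      rank_inj := numOf_injective
      deg_lt := fun g l u => hD D p T g l u }
  have h4 : WLEquiv (m + 1) (G false) (G true) ↔
      WLEquiv (m + 1) (pairGraph (S.toHorn p T) D J cidx viewRank false)
        (pairGraph (S.toHorn p T) D J cidx viewRank true) :=
    wlEquiv_comap e _ _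
  by_cases hk : (S.toHorn p T).Known (S.toHorn p T).Pg 0
  · exact spo hpair hk (h4.1 (h3.1 hk))
  · exact hk (h3.2 (h4.2 (dup hpair hk)))

/-- for `k ≥ 16` the time is at least `c * n ^ ((k - 1) / 6)` for all large `n` -/
theorem main_lower {k : ℕ} (hk : 16 ≤ k) {T : ℕ → ℕ} {N : SM} {kin kout : N.K}
    {sym : Bool → N.G} {gacc : N.G} {C : ℕ} (hN : SMDec k T N kin kout sym gacc C) :
    ∃ c : ℝ, 0 < c ∧ ∀ᶠ n : ℕ in atTop,
      c * (n : ℝ) ^ (((k : ℝ) - 1) / 6) ≤ (T n : ℝ) := by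
  obtain ⟨m, rfl⟩ : ∃ m, k = m + 1 := ⟨k - 1, by omega⟩
  obtain ⟨p₀, h⟩ := fixed_point (by omega : 15 ≤ m) hN
  have := numerics (by omega : 15 ≤ m) C p₀ T h
  simpa using this

/-- A bound for all `k ≥ 2`: the time is at least `c * n ^ (k / 8)` for all large `n`. -/
theorem uniform_lower {k : ℕ} (hk : 2 ≤ k) {T : ℕ → ℕ} {N : SM} {kin kout : N.K}
    {sym : Bool → N.G} {gacc : N.G} {C : ℕ} (hN : SMDec k T N kin kout sym gacc C) :
    ∃ c : ℝ, 0 < c ∧ ∀ᶠ n : ℕ in atTop, c * (n : ℝ) ^ ((k : ℝ) / 8) ≤ (T n : ℝ) := by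
  rcases le_or_gt 16 k with h16 | h16
  · obtain ⟨c, hc, hev⟩ := main_lower h16 hN
    refine ⟨c, hc, ?_⟩
    filter_upwards [hev, eventually_ge_atTop 1] with n hn h1
    refine le_trans ?_ hn
    refine mul_le_mul_of_nonneg_left ?_ hc.le
    refine Real.rpow_le_rpow_of_exponent_le (by exact_mod_cast h1) ?_
    have : (16 : ℝ) ≤ k := by exact_mod_cast h16
    linarith
  · have hC := triv_lower hk hN
    have hCpos : 0 < C := by
      rcases Nat.eq_zero_or_pos C with h0 | h0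
      · have := hC 2 le_rfl
        rw [h0] at this
        omega
      · exact h0
    have hCr : (0 : ℝ) < C := by exact_mod_cast hCpos
    refine ⟨1 / (2 * C), by positivity, ?_⟩
    filter_upwards [eventually_ge_atTop (2 * C + 2)] with n hn
    have hn2 : 2 ≤ n := by omega
    have h1 : ((n : ℝ)) ^ 2 ≤ C * (T n + 1) := by exact_mod_cast hC n hn2
    have hn1 : (1 : ℝ) ≤ n := by exact_mod_cast (by omega : 1 ≤ n)
    have h2 : (n : ℝ) ^ ((k : ℝ) / 8) ≤ (n : ℝ) ^ 2 := by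
      rw [← Real.rpow_natCast (n : ℝ) 2]
      refine Real.rpow_le_rpow_of_exponent_le hn1 ?_
      have : (k : ℝ) ≤ 16 := by exact_mod_cast h16.le
      push_cast
      linarith
    have h3 : (2 * C : ℝ) ≤ (n : ℝ) ^ 2 := by
      have h4 : (2 * C : ℝ) ≤ n := by exact_mod_cast (by omega : 2 * C ≤ n)
      nlinarith
    have h5 : (n : ℝ) ^ 2 / C ≤ T n + 1 := by
      rw [div_le_iff₀ hCr]
      linarith
    have h6 : (1 : ℝ) ≤ (n : ℝ) ^ 2 / (2 * C) := by
      rw [le_div_iff₀ (by positivity)]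
      linarith
    have h7 : (n : ℝ) ^ 2 / C = 2 * ((n : ℝ) ^ 2 / (2 * C)) := by
      field_simp
    calc 1 / (2 * (C : ℝ)) * (n : ℝ) ^ ((k : ℝ) / 8) ≤ 1 / (2 * (C : ℝ)) * (n : ℝ) ^ 2 :=
          mul_le_mul_of_nonneg_left h2 (by positivity)
      _ = (n : ℝ) ^ 2 / (2 * C) := by ring
      _ ≤ T n := by linarith

end Vale.Agent.P310T
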