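import Vale.Agent.Lib.P310T.Defs
import Vale.Agent.Lib.P310.SM

/-!
# P310T: simulation of multitape machines by stack machines
-/

namespace Vale.Agent.P310T

open Vale.Agent.P310

section Sim

variable (M : Machine)

/-- program counter -/
abbrev PC : Type := Option (Fin (M.extra + 1) × Bool)

/-- the counter at the beginning of the work on tape `i` -/
def pcAt (i : ℕ) : PC M := if h : i < M.extra + 1 then some (⟨i, h⟩, false) else none

/-- control states -/
abbrev Ctl : Type :=
  Option (M.Q × (Fin (M.extra + 1) → M.Γ) × (Fin (M.extra + 1) → M.Γ × Option Turing.Dir) × PC M)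

/-- stacks: the output stack, left stacks (`false`) and right stacks (`true`) -/
abbrev Stk : Type := Option (Fin (M.extra + 1) × Bool)

/-- is it a move to the right? -/
def isR : Option Turing.Dir → Bool
  | some Turing.Dir.right => true
  | _ => false

def sSel : Ctl M → Stk M
  | some (_, _, a, some (i, false)) => some (i, !isR (a i).2)
  | some (_, _, a, some (i, true)) => some (i, isR (a i).2)
  | _ => none

def sNxt : Ctl M → Option M.Γ → Ctl M
  | none, _ => none
  | some (q, h, a, some (i, false)), _ => some (q, h, a, some (i, true))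
  | some (q, h, a, some (i, true)), o =>
    some (q, Function.update h i (if (a i).2 = none then (a i).1 else o.getD default), a,
      pcAt M (i + 1))
  | some (q, h, _, none), _ =>
    if (M.verdict q).isSome then none else some ((M.δ q h).1, h, (M.δ q h).2, pcAt M 0)

def sOp : Ctl M → Option M.Γ → Option (Option M.Γ)
  | some (_, _, a, some (i, false)), _ => if (a i).2 = none then none else some (some (a i).1)
  | some (_, _, a, some (i, true)), _ => if (a i).2 = none then none else some none
  | some (q, _, _, none), _ => if M.verdict q = some true then some (some default) else none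
  | none, _ => none

instance : Finite Turing.Dir :=
  Finite.of_surjective (fun b : Bool => if b then Turing.Dir.left else Turing.Dir.right) (by
    intro d
    cases d
    · exact ⟨true, rfl⟩
    · exact ⟨false, rfl⟩)

/-- the stack machine -/
def sm : SM where
  K := Stk M
  G := M.Γ
  Q := Ctl M
  finK := inferInstance
  finG := inferInstance
  finQ := inferInstance
  sel := sSel M
  nxt := sNxt M
  op := sOp M
  halt := fun q => q = none
  q0 := some (M.start, fun _ => default, fun _ => (default, some Turing.Dir.right), pcAt M 0)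

/-- the tape is represented by the symbol under the head and two stacks -/
def Mt {Γ : Type} [Inhabited Γ] (T : Turing.Tape Γ) (h : Γ) (L R : List Γ) : Prop :=
  T = ⟨h, Turing.ListBlank.mk L, Turing.ListBlank.mk R⟩

theorem mt_none {Γ : Type} [Inhabited Γ] {T : Turing.Tape Γ} {h : Γ} {L R : List Γ}
    (H : Mt T h L R) {a : Γ × Option Turing.Dir} (ha : a.2 = none) : Mt (act a T) a.1 L R := by
  unfold Mt at H
  subst H
  obtain ⟨w, d⟩ := a
  simp only at ha
  subst ha
  rfl

theorem mt_right {Γ : Type} [Inhabited Γ] {T : Turing.Tape Γ} {h : Γ} {L R : List Γ}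
    (H : Mt T h L R) {a : Γ × Option Turing.Dir} (ha : a.2 = some Turing.Dir.right) :
    Mt (act a T) (R.head?.getD default) (a.1 :: L) R.tail := by
  unfold Mt at H
  subst H
  obtain ⟨w, d⟩ := a
  simp only at ha
  subst ha
  cases R <;> rfl

theorem mt_left {Γ : Type} [Inhabited Γ] {T : Turing.Tape Γ} {h : Γ} {L R : List Γ}
    (H : Mt T h L R) {a : Γ × Option Turing.Dir} (ha : a.2 = some Turing.Dir.left) :
    Mt (act a T) (L.head?.getD default) L.tail (a.1 :: R) := by
  unfold Mt at H
  subst H
  obtain ⟨w, d⟩ := a
  simp only at ha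
  subst ha
  cases L <;> rfl

theorem step_stay (N : SM) (c : N.Cfg) (hh : ¬ N.halt c.q)
    (hop : N.op c.q (c.stk (N.sel c.q)).head? = none) :
    N.step c = ⟨N.nxt c.q (c.stk (N.sel c.q)).head?, c.stk⟩ := by
  unfold SM.step
  rw [if_neg hh, hop]

theorem step_pop (N : SM) (c : N.Cfg) (hh : ¬ N.halt c.q)
    (hop : N.op c.q (c.stk (N.sel c.q)).head? = some none) :
    ∃ St', N.step c = ⟨N.nxt c.q (c.stk (N.sel c.q)).head?, St'⟩ ∧
      St' (N.sel c.q) = (c.stk (N.sel c.q)).tail ∧ ∀ k, k ≠ N.sel c.q → St' k = c.stk k := by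
  classical
  refine ⟨Function.update c.stk (N.sel c.q) (c.stk (N.sel c.q)).tail, ?_,
    Function.update_self _ _ _, fun k hk => Function.update_of_ne hk _ _⟩
  unfold SM.step
  rw [if_neg hh, hop]

theorem step_push (N : SM) (c : N.Cfg) (hh : ¬ N.halt c.q) (g : N.G)
    (hop : N.op c.q (c.stk (N.sel c.q)).head? = some (some g)) :
    ∃ St', N.step c = ⟨N.nxt c.q (c.stk (N.sel c.q)).head?, St'⟩ ∧
      St' (N.sel c.q) = g :: c.stk (N.sel c.q) ∧ ∀ k, k ≠ N.sel c.q → St' k = c.stk k := by
  classical
  refine ⟨Function.update c.stk (N.sel c.q) (g :: c.stk (N.sel c.q)), ?_,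
    Function.update_self _ _ _, fun k hk => Function.update_of_ne hk _ _⟩
  unfold SM.step
  rw [if_neg hh, hop]

/-- the two steps for tape `i` -/
theorem two_steps (q : M.Q) (h : Fin (M.extra + 1) → M.Γ)
    (a : Fin (M.extra + 1) → M.Γ × Option Turing.Dir) (i : Fin (M.extra + 1))
    (St : Stk M → List M.Γ) (T : Turing.Tape M.Γ)
    (H : Mt T (h i) (St (some (i, false))) (St (some (i, true)))) :
    ∃ (h' : Fin (M.extra + 1) → M.Γ) (St' : Stk M → List M.Γ),
      (sm M).step ((sm M).step ⟨some (q, h, a, some (i, false)), St⟩) =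
        ⟨some (q, h', a, pcAt M (i + 1)), St'⟩ ∧ St' none = St none ∧
      (∀ j, j ≠ i → h' j = h j ∧ ∀ b, St' (some (j, b)) = St (some (j, b))) ∧
      Mt (act (a i) T) (h' i) (St' (some (i, false))) (St' (some (i, true))) := by
  have hnh : ∀ (x : M.Q × (Fin (M.extra + 1) → M.Γ) ×
      (Fin (M.extra + 1) → M.Γ × Option Turing.Dir) × PC M), ¬ (sm M).halt (some x) := by
    intro x hx
    cases hx
  rcases ha : (a i).2 with _ | d
  · refine ⟨Function.update h i (a i).1, St, ?_, rfl, ?_, ?_⟩
    · have e1 : (sm M).step ⟨some (q, h, a, some (i, false)), St⟩ =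
          ⟨some (q, h, a, some (i, true)), St⟩ :=
        step_stay (sm M) ⟨some (q, h, a, some (i, false)), St⟩ (hnh _) (by simp [sm, sOp, ha])
      rw [e1, step_stay (sm M) ⟨some (q, h, a, some (i, true)), St⟩ (hnh _)
        (by simp [sm, sOp, ha])]
      simp [sm, sNxt, ha]
    · intro j hj
      exact ⟨Function.update_of_ne hj _ _, fun _ => rfl⟩
    · rw [Function.update_self]
      exact mt_none H ha
  · -- the push
    obtain ⟨S1, f1, f2, f3⟩ := step_push (sm M) ⟨some (q, h, a, some (i, false)), St⟩ (hnh _)
      (a i).1 (by simp [sm, sOp, ha])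
    have hs1 : (sm M).sel (some (q, h, a, some (i, false))) =
        (some (i, !isR (some d)) : Stk M) := by
      simp [sm, sSel, ha]
    have hn1 : ∀ o, (sm M).nxt (some (q, h, a, some (i, false))) o =
        some (q, h, a, some (i, true)) := fun o => rfl
    rw [hn1] at f1
    rw [f1]
    simp only [hs1] at f2 f3
    obtain ⟨S2, g1, g2, g3⟩ := step_pop (sm M) ⟨some (q, h, a, some (i, true)), S1⟩ (hnh _)
      (by simp [sm, sOp, ha])
    have hs2 : (sm M).sel (some (q, h, a, some (i, true))) = (some (i, isR (some d)) : Stk M) := by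
      simp [sm, sSel, ha]
    have hne : (some (i, isR (some d)) : Stk M) ≠ some (i, !isR (some d)) := by simp
    have hn2 : (sm M).nxt (some (q, h, a, some (i, true)))
        (S1 (some (i, isR (some d)) : Stk M)).head? =
        some (q, Function.update h i ((St (some (i, isR (some d)))).head?.getD default), a,
          pcAt M (i + 1)) := by
      rw [f3 _ hne]
      simp [sm, sNxt, ha]
    simp only [hs2] at g1 g2 g3
    rw [hn2] at g1
    have hother : ∀ k : Stk M, k ≠ some (i, false) → k ≠ some (i, true) → S2 k = St k := by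
      intro k k1 k2
      rw [g3 k (by cases isR (some d) <;> assumption), f3 k (by
        cases isR (some d)
        · exact k2
        · exact k1)]
    have hpush : S2 (some (i, !isR (some d))) = (a i).1 :: St (some (i, !isR (some d))) :=
      (g3 _ hne.symm).trans f2
    have hpop : S2 (some (i, isR (some d))) = (St (some (i, isR (some d)))).tail :=
      g2.trans (congrArg List.tail (f3 _ hne))
    refine ⟨_, S2, g1, hother _ (by simp) (by simp), ?_, ?_⟩
    · intro j hj
      exact ⟨Function.update_of_ne hj _ _, fun b => hother _ (by simp [hj]) (by simp [hj])⟩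
    · rw [Function.update_self]
      cases d
      · have e1 : isR (some Turing.Dir.left) = false := rfl
        rw [e1] at hpush hpop ⊢
        simp only [Bool.not_false] at hpush
        rw [hpush, hpop]
        exact mt_left H ha
      · have e1 : isR (some Turing.Dir.right) = true := rfl
        rw [e1] at hpush hpop ⊢
        simp only [Bool.not_true] at hpush
        rw [hpush, hpop]
        exact mt_right H ha

/-- the work on the tapes `0, …, i-1` -/
theorem sweep (q : M.Q) (h : Fin (M.extra + 1) → M.Γ)
    (a : Fin (M.extra + 1) → M.Γ × Option Turing.Dir)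
    (St : Stk M → List M.Γ) (T : Fin (M.extra + 1) → Turing.Tape M.Γ)
    (H : ∀ j, Mt (T j) (h j) (St (some (j, false))) (St (some (j, true)))) (i : ℕ)
    (hi : i ≤ M.extra + 1) :
    ∃ (h' : Fin (M.extra + 1) → M.Γ) (St' : Stk M → List M.Γ),
      (sm M).step^[2 * i] ⟨some (q, h, a, pcAt M 0), St⟩ = ⟨some (q, h', a, pcAt M i), St'⟩ ∧
      St' none = St none ∧ ∀ j : Fin (M.extra + 1),
        Mt (if (j : ℕ) < i then act (a j) (T j) else T j) (h' j) (St' (some (j, false)))
          (St' (some (j, true))) := by
  induction i with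
  | zero => exact ⟨h, St, rfl, rfl, fun j => by simpa using H j⟩
  | succ i ih =>
    obtain ⟨h', St', e1, e2, e3⟩ := ih (by omega)
    have hi' : i < M.extra + 1 := by omega
    have hpc : pcAt M i = some (⟨i, hi'⟩, false) := by
      unfold pcAt
      rw [dif_pos hi']
    have e4 := e3 ⟨i, hi'⟩
    simp only [lt_irrefl, if_false] at e4
    obtain ⟨h'', St'', f1, f2, f3, f4⟩ := two_steps M q h' a ⟨i, hi'⟩ St' (T ⟨i, hi'⟩) e4
    refine ⟨h'', St'', ?_, f2.trans e2, fun j => ?_⟩
    · rw [show 2 * (i + 1) = (2 * i + 1) + 1 from by ring, Function.iterate_succ_apply',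
        Function.iterate_succ_apply', e1, hpc]
      exact f1
    · by_cases hj : j = ⟨i, hi'⟩
      · subst hj
        rw [if_pos (by simp)]
        exact f4
      · obtain ⟨g1, g2⟩ := f3 j hj
        rw [g1, g2, g2]
        have hne : (j : ℕ) ≠ i := fun h => hj (Fin.ext h)
        have e5 := e3 j
        by_cases hlt : (j : ℕ) < i
        · rw [if_pos hlt] at e5
          rw [if_pos (by omega)]
          exact e5
        · rw [if_neg hlt] at e5
          rw [if_neg (by omega)]
          exact e5

theorem pcAt_end : pcAt M (M.extra + 1) = none := by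
  unfold pcAt
  rw [dif_neg (lt_irrefl _)]

/-- representation of a configuration -/
def Rel (c : Config M) (s : (sm M).Cfg) : Prop :=
  ∃ (h : Fin (M.extra + 1) → M.Γ) (a : Fin (M.extra + 1) → M.Γ × Option Turing.Dir)
    (St : Stk M → List M.Γ), s = ⟨some (c.q, h, a, none), St⟩ ∧ St none = [] ∧
    ∀ j, Mt (c.tape j) (h j) (St (some (j, false))) (St (some (j, true)))

/-- the initial stacks -/
def st0 (w : List Bool) : Stk M → List M.Γ := fun k => if k = some (0, true) then w.map M.bit else []

theorem init_self (N : SM) (kin : N.K) {I : Type} (sym : I → N.G) (w : List I) :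
    (N.init kin sym w).stk kin = w.map sym := by
  simp [SM.init]

theorem init_ne (N : SM) (kin : N.K) {I : Type} (sym : I → N.G) (w : List I) {k : N.K}
    (hk : k ≠ kin) : (N.init kin sym w).stk k = [] := by
  simp [SM.init, hk]

theorem init_eq (w : List Bool) : (sm M).init (some (0, true) : Stk M) M.bit w =
    ⟨some (M.start, fun _ => default, fun _ => (default, some Turing.Dir.right), pcAt M 0),
      st0 M w⟩ := by
  have h : ∀ k : Stk M, ((sm M).init (some (0, true) : Stk M) M.bit w).stk k = st0 M w k := by
    intro k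
    by_cases hk : k = some (0, true)
    · rw [hk]
      exact (init_self (sm M) (some (0, true) : Stk M) M.bit w).trans (by
        unfold st0
        rw [if_pos rfl]
        rfl)
    · exact (init_ne (sm M) (some (0, true) : Stk M) M.bit w hk).trans (by
        unfold st0
        rw [if_neg hk]
        rfl)
  have h2 : ((sm M).init (some (0, true) : Stk M) M.bit w).stk = st0 M w := funext h
  rw [← h2]
  rfl

theorem rel_init (w : List Bool) :
    Rel M (M.init w) ((sm M).step^[2 * (M.extra + 1)]
      ((sm M).init (some (0, true)) M.bit w)) := by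
  obtain ⟨h', St', e1, e2, e3⟩ := sweep M M.start (fun _ => default)
    (fun _ => (default, some Turing.Dir.right))
    (st0 M w)
    (fun j => ⟨default, Turing.ListBlank.mk [],
      Turing.ListBlank.mk (if j = 0 then w.map M.bit else [])⟩) (by
      intro j
      unfold Mt
      simp [st0]) (M.extra + 1) le_rfl
  rw [pcAt_end] at e1
  rw [init_eq]
  refine ⟨h', _, St', e1, ?_, fun j => ?_⟩
  · rw [e2]
    simp [st0]
  · have e4 := e3 j
    rw [if_pos j.2] at e4
    have e5 : (M.init w).tape j = act (default, some Turing.Dir.right)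
        ⟨default, Turing.ListBlank.mk [],
          Turing.ListBlank.mk (if j = 0 then w.map M.bit else [])⟩ := by
      change Turing.Tape.mk₁ (if j = 0 then w.map M.bit else []) = _
      have e6 : (Turing.ListBlank.mk [] : Turing.ListBlank M.Γ) =
          (Turing.ListBlank.mk []).cons default := by
        rw [Turing.ListBlank.cons_mk]
        refine Quotient.sound' (Or.inl ⟨1, rfl⟩)
      unfold Turing.Tape.mk₁ Turing.Tape.mk₂ Turing.Tape.mk' act Turing.Tape.write Turing.Tape.move
      simp only
      rw [← e6]
    rw [e5]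
    exact e4

theorem step_frozen {c : Config M} {b : Bool} (h : M.verdict c.q = some b) : M.step c = c := by
  unfold Machine.step
  rw [h, if_pos (by simp)]

theorem rel_step (c : Config M) (s : (sm M).Cfg) (H : Rel M c s) (hv : M.verdict c.q = none) :
    Rel M (M.step c) ((sm M).step^[2 * (M.extra + 1) + 1] s) := by
  classical
  obtain ⟨h, a, St, rfl, h0, hT⟩ := H
  have hh : h = fun j => (c.tape j).head := by
    funext j
    rw [hT j]
  have hstep : (sm M).step ⟨some (c.q, h, a, none), St⟩ =
      ⟨some ((M.δ c.q h).1, h, (M.δ c.q h).2, pcAt M 0), St⟩ := by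
    simp [SM.step, sm, sSel, sNxt, sOp, hv]
  rw [Function.iterate_succ_apply, hstep]
  obtain ⟨h', St', e1, e2, e3⟩ := sweep M (M.δ c.q h).1 h (M.δ c.q h).2 St c.tape hT
    (M.extra + 1) le_rfl
  rw [pcAt_end] at e1
  refine ⟨h', (M.δ c.q h).2, St', ?_, by rw [e2, h0], fun j => ?_⟩
  · rw [e1]
    unfold Machine.step
    rw [hv, if_neg (by simp), hh]
  · have e4 := e3 j
    rw [if_pos j.2] at e4
    unfold Machine.step
    rw [hv, if_neg (by simp)]
    rw [hh] at e4
    exact e4

/-- the whole simulation -/
theorem rel_run (w : List Bool) (s : ℕ) : ∃ m ≤ (2 * (M.extra + 1) + 1) * (s + 1),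
    Rel M (M.step^[s] (M.init w)) ((sm M).step^[m] ((sm M).init (some (0, true)) M.bit w)) := by
  induction s with
  | zero => exact ⟨2 * (M.extra + 1), by omega, rel_init M w⟩
  | succ s ih =>
    obtain ⟨m, hm, hR⟩ := ih
    rw [Function.iterate_succ_apply']
    rcases hv : M.verdict (M.step^[s] (M.init w)).q with _ | b
    · refine ⟨2 * (M.extra + 1) + 1 + m, by rw [mul_add _ (s + 1) 1]; omega, ?_⟩
      rw [Function.iterate_add_apply]
      exact rel_step M _ _ hR hv
    · refine ⟨m, hm.trans (Nat.mul_le_mul_left _ (by omega)), ?_⟩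
      rw [step_frozen M hv]
      exact hR

/-- a stack machine with the same answers -/
theorem exists_sm : ∃ (N : SM) (kin kout : N.K) (sym : Bool → N.G) (gacc : N.G) (C : ℕ),
      ∀ (w : List Bool) (b : Bool) (t : ℕ),
        M.verdict (M.step^[t] (M.init w)).q = some b →
        ∃ n ≤ C * (t + 1), N.halt (N.step^[n] (N.init kin sym w)).q ∧
          (((N.step^[n] (N.init kin sym w)).stk kout).head? = some gacc ↔ b = true) := by
  classical
  refine ⟨sm M, some (0, true), none, M.bit, (default : M.Γ), 2 * (M.extra + 1) + 2, ?_⟩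
  intro w b t hb
  obtain ⟨m, hm, h, a, St, hs, h0, -⟩ := rel_run M w t
  refine ⟨m + 1, ?_, ?_, ?_⟩
  · have : (2 * (M.extra + 1) + 2) * (t + 1) = (2 * (M.extra + 1) + 1) * (t + 1) + (t + 1) := by
      ring
    omega
  · rw [Function.iterate_succ_apply', hs]
    simp [SM.step, sm, sNxt, hb]
  · rw [Function.iterate_succ_apply', hs]
    cases b
    · simp [SM.step, sm, sNxt, sOp, sSel, hb, h0]
    · obtain ⟨S1, f1, f2, -⟩ := step_push (sm M)
        ⟨some ((M.step^[t] (M.init w)).q, h, a, none), St⟩ (by intro hx; cases hx)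
        (default : M.Γ) (by simp [sm, sOp, hb])
      have f2' : S1 (none : Stk M) = (default : M.Γ) :: St none := f2
      rw [f1]
      simp only
      rw [f2']
      simp only [iff_true]
      rfl

end Sim

end Vale.Agent.P310T
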