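import Vale.Agent.Lib.P310T.Conv
import Vale.Agent.Lib.P310T.Sim
import Vale.Agent.Lib.P310T.Lower

/-!
# P310T: deciders with their worst-case running time are covered by the lower bounds
-/

namespace Vale.Agent.P310T

open Filter Vale.Agent.P310

theorem iterate_halted (M : Machine) {c : Config M} (h : (M.verdict c.q).isSome) (m : ℕ) :
    M.step^[m] c = c := by
  induction m with
  | zero => rfl
  | succ m ih =>
    rw [Function.iterate_succ_apply', ih]
    unfold Machine.step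
    rw [if_pos h]

theorem run_add (M : Machine) {n : ℕ} {G H : SimpleGraph (Fin n)} {s : ℕ}
    (h : (M.verdict (M.run G H s).q).isSome) (m : ℕ) : M.run G H (s + m) = M.run G H s := by
  unfold Machine.run at h ⊢
  rw [Nat.add_comm, Function.iterate_add_apply]
  exact iterate_halted M h m

theorem run_le (M : Machine) {n : ℕ} {G H : SimpleGraph (Fin n)} {s s' : ℕ} (hs : s ≤ s')
    (h : (M.verdict (M.run G H s).q).isSome) : M.run G H s' = M.run G H s := by
  obtain ⟨m, rfl⟩ := Nat.exists_eq_add_of_le hs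
  exact run_add M h m

theorem exists_time {M : Machine} {k : ℕ} (hM : Decides M k) (n : ℕ) :
    ∃ s : ℕ, ∀ G H : SimpleGraph (Fin n), (M.verdict (M.run G H s).q).isSome := by
  choose f hf using hM n
  obtain ⟨B, hB⟩ := Finite.exists_le fun p : SimpleGraph (Fin n) × SimpleGraph (Fin n) => f p.1 p.2
  refine ⟨B, fun G H => ?_⟩
  have h1 : (M.verdict (M.run G H (f G H)).q).isSome := by rw [hf G H]; rfl
  rw [run_le M (hB (G, H)) h1]
  exact h1

open Classical in
theorem run_time {M : Machine} {k : ℕ} (hM : Decides M k) {n : ℕ} (G H : SimpleGraph (Fin n)) :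
    M.verdict (M.run G H (runningTime M n)).q = some (decide (Equivalent k G H)) := by
  have h1 : ∀ G H : SimpleGraph (Fin n), (M.verdict (M.run G H (runningTime M n)).q).isSome :=
    Nat.sInf_mem (exists_time hM n)
  obtain ⟨s, hs⟩ := hM n G H
  have h2 : (M.verdict (M.run G H s).q).isSome := by rw [hs]; rfl
  rw [← hs]
  rcases le_total s (runningTime M n) with h | h
  · rw [run_le M h h2]
  · rw [run_le M h (h1 G H)]

theorem exists_smDec {M : Machine} {k : ℕ} (hM : Decides M k) :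
    ∃ (N : SM) (kin kout : N.K) (sym : Bool → N.G) (gacc : N.G) (C : ℕ),
      SMDec k (runningTime M) N kin kout sym gacc C := by
  classical
  obtain ⟨N, kin, kout, sym, gacc, C, h⟩ := exists_sm (M := M)
  refine ⟨N, kin, kout, sym, gacc, C, fun n G H => ?_⟩
  obtain ⟨n₁, hn₁, h1, h2⟩ := h (matrixWord G ++ matrixWord H) _ _ (run_time hM G H)
  rw [matrixWord_eq, matrixWord_eq] at h1 h2
  refine ⟨n₁, hn₁, h1, h2.trans ?_⟩
  unfold wlDecision
  rw [decide_eq_true_iff, decide_eq_true_iff]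
  exact equivalent_iff G H

/-- lower bound for `k ≥ 16` -/
theorem lower_large {M : Machine} {k : ℕ} (hM : Decides M k) (hk : 16 ≤ k) :
    ∃ c > (0 : ℝ), ∃ n₀ : ℕ, ∀ n ≥ n₀, c * (n : ℝ) ^ (((k : ℝ) - 1) / 6) ≤ runningTime M n := by
  obtain ⟨N, kin, kout, sym, gacc, C, h⟩ := exists_smDec hM
  obtain ⟨c, hc, h⟩ := main_lower hk h
  exact ⟨c, hc, eventually_atTop.1 h⟩

/-- lower bound for all `k ≥ 2`, without a constant factor -/
theorem lower_all {M : Machine} {k : ℕ} (hM : Decides M k) (hk : 2 ≤ k) :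
    ∃ n₀ : ℕ, ∀ n ≥ n₀, (n : ℝ) ^ ((k : ℝ) / 9) ≤ runningTime M n := by
  obtain ⟨N, kin, kout, sym, gacc, C, h⟩ := exists_smDec hM
  obtain ⟨c, hc, h⟩ := uniform_lower hk h
  have hk0 : (2 : ℝ) ≤ k := by exact_mod_cast hk
  have hd : (0 : ℝ) < k / 8 - k / 9 := by linarith
  have hT : Tendsto (fun n : ℕ => (n : ℝ) ^ ((k : ℝ) / 8 - k / 9)) atTop atTop :=
    (tendsto_rpow_atTop hd).comp tendsto_natCast_atTop_atTop
  refine eventually_atTop.1 ?_
  filter_upwards [h, hT.eventually (eventually_ge_atTop (1 / c)), eventually_gt_atTop 0]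
    with n h1 h2 h3
  have hn0 : (0 : ℝ) < n := by exact_mod_cast h3
  refine le_trans ?_ h1
  have h4 : (n : ℝ) ^ ((k : ℝ) / 8) = (n : ℝ) ^ ((k : ℝ) / 8 - k / 9) * (n : ℝ) ^ ((k : ℝ) / 9) := by
    rw [← Real.rpow_add hn0]
    congr 1
    ring
  rw [h4, ← mul_assoc]
  refine le_mul_of_one_le_left (Real.rpow_nonneg hn0.le _) ?_
  rw [div_le_iff₀ hc] at h2
  linarith

theorem no_small {g : ℕ → ℝ} (hg : ∀ ε > (0 : ℝ), ∃ K : ℕ, ∀ k ≥ K, g k ≤ ε * k) :
    ∃ k₀ : ℕ, ∀ k ≥ k₀, ∀ M : Machine, Decides M k → ∀ C : ℝ, ∃ n₀ : ℕ, ∀ n ≥ n₀,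
      C * (n : ℝ) ^ g k < runningTime M n := by
  obtain ⟨K, hK⟩ := hg (1 / 12) (by norm_num)
  refine ⟨max K 16, fun k hk M hM C => ?_⟩
  have hk16 : 16 ≤ k := le_trans (le_max_right _ _) hk
  obtain ⟨c, hc, n₁, h⟩ := lower_large hM hk16
  have hkr : (16 : ℝ) ≤ k := by exact_mod_cast hk16
  have hgk := hK k (le_trans (le_max_left _ _) hk)
  have hd : 0 < ((k : ℝ) - 1) / 6 - g k := by linarith
  have hT : Tendsto (fun n : ℕ => (n : ℝ) ^ (((k : ℝ) - 1) / 6 - g k)) atTop atTop :=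
    (tendsto_rpow_atTop hd).comp tendsto_natCast_atTop_atTop
  refine eventually_atTop.1 ?_
  filter_upwards [eventually_ge_atTop n₁, hT.eventually (eventually_gt_atTop (C / c)),
    eventually_gt_atTop 0] with n h1 h2 h3
  have hn0 : (0 : ℝ) < n := by exact_mod_cast h3
  refine lt_of_lt_of_le ?_ (h n h1)
  have h4 : (n : ℝ) ^ (((k : ℝ) - 1) / 6) =
      (n : ℝ) ^ (((k : ℝ) - 1) / 6 - g k) * (n : ℝ) ^ g k := by
    rw [← Real.rpow_add hn0]
    congr 1
    ring
  rw [h4, ← mul_assoc]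
  refine mul_lt_mul_of_pos_right ?_ (Real.rpow_pos_of_pos hn0 _)
  rw [div_lt_iff₀ hc] at h2
  linarith

end Vale.Agent.P310T
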